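import Mathlib

/-!
# Asymptotic moduli of convexity

Definitions, taken literally from the problem text. The moduli are computed in `EReal`, a
complete lattice, so that no junk value of `sInf` or `sSup` can enter.
-/

namespace Vale.Agent.P069

variable (X : Type*) [NormedAddCommGroup X] [NormedSpace ℝ X]

/-- `N` is an equivalent norm on `X`. -/
def IsEquivalentNorm (N : X → ℝ) : Prop :=
  (∀ x y : X, N (x + y) ≤ N x + N y) ∧ (∀ (a : ℝ) (x : X), N (a • x) = |a| * N x) ∧
    ∃ c C : ℝ, 0 < c ∧ ∀ x : X, c * ‖x‖ ≤ N x ∧ N x ≤ C * ‖x‖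

/-- The closed subspaces of finite codimension. -/
def cof : Set (Submodule ℝ X) :=
  {F | IsClosed (F : Set X) ∧ FiniteDimensional ℝ (X ⧸ F)}

/-- The modulus of asymptotic uniform convexity of `N`. -/
noncomputable def deltaBar (N : X → ℝ) (t : ℝ) : EReal :=
  ⨅ (x : X) (_ : N x = 1), ⨆ F ∈ cof X, ⨅ (y : X) (_ : y ∈ F ∧ N y = 1),
    ((N (x + t • y) - 1 : ℝ) : EReal)

/-- The modulus of asymptotic midpoint uniform convexity of `N`. -/
noncomputable def midBar (N : X → ℝ) (t : ℝ) : EReal :=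
  ⨅ (x : X) (_ : N x = 1), ⨆ F ∈ cof X, ⨅ (y : X) (_ : y ∈ F ∧ N y = 1),
    ((max (N (x + t • y)) (N (x - t • y)) - 1 : ℝ) : EReal)

/-- `N` is asymptotically uniformly convex. -/
def IsAUC (N : X → ℝ) : Prop :=
  ∀ t : ℝ, 0 < t → 0 < deltaBar X N t

/-- `N` is asymptotically midpoint uniformly convex. -/
def IsAMUC (N : X → ℝ) : Prop :=
  ∀ t : ℝ, 0 < t → 0 < midBar X N t

/-- `X` has an equivalent AUC norm. -/
def AUCRenormable : Prop :=
  ∃ N : X → ℝ, IsEquivalentNorm X N ∧ IsAUC X N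

/-- `X` has an equivalent AMUC norm. -/
def AMUCRenormable : Prop :=
  ∃ N : X → ℝ, IsEquivalentNorm X N ∧ IsAMUC X N

end Vale.Agent.P069
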