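import Vale.Agent.P069.Reflexive

/-!
# The norm of `X` is asymptotically midpoint uniformly convex
-/

namespace Vale.Agent.P069

open scoped RealInnerProductSpace

/-- An element of `ℓ²` dominated by another one. -/
noncomputable def dominated (u : Hil) (v : List ℕ → ℝ) (hv : ∀ l, |v l| ≤ |u l|) : Hil :=
  ⟨v, (lp.memℓp u).mono' hv⟩

theorem norm_dominated_le (u : Hil) (v : List ℕ → ℝ) (hv : ∀ l, |v l| ≤ |u l|) :
    ‖dominated u v hv‖ ≤ ‖u‖ :=
  lp.norm_mono (by norm_num) hv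

theorem norm_add_smul_le {n : ℕ} {u k : Blk n} {M b : ℝ} (hb : 0 ≤ b) (hk : ‖k‖ ≤ M)
    (horth : ∀ l, hil n u l * hil n k l = 0)
    (hpre : ∀ l, |pre (hil n u) l + b * pre (hil n k) l| ≤
      max |pre (hil n u) l| (b * |pre (hil n k) l|)) :
    ‖u + b • k‖ ^ 2 ≤ ‖u‖ ^ 2 + b ^ 2 * M ^ 2 := by
  have hM : 0 ≤ M := (norm_nonneg _).trans hk
  have hR : 0 ≤ ‖u‖ ^ 2 + b ^ 2 * M ^ 2 := by positivity
  have hbk : b * ‖k‖ ≤ b * M := mul_le_mul_of_nonneg_left hk hb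
  have h : ‖u + b • k‖ ≤ √(‖u‖ ^ 2 + b ^ 2 * M ^ 2) := by
    refine blk_norm_le _ (Real.sqrt_nonneg _) (Real.le_sqrt_of_sq_le ?_) fun l => ?_
    · have h0 : ⟪hil n u, b • hil n k⟫ = 0 := by
        rw [real_inner_smul_right, lp.inner_eq_tsum]
        have : ∀ l, ⟪hil n u l, hil n k l⟫ = 0 := fun l => by
          simpa [mul_comm] using horth l
        simp only [this, tsum_zero, mul_zero]
      have h2 := norm_add_sq_eq_norm_sq_add_norm_sq_of_inner_eq_zero _ _ h0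
      rw [map_add, map_smul, sq, h2, norm_smul, Real.norm_eq_abs, abs_of_nonneg hb]
      have hu := norm_hil_le u
      have hk' : b * ‖hil n k‖ ≤ b * M :=
        mul_le_mul_of_nonneg_left ((norm_hil_le k).trans hk) hb
      nlinarith [norm_nonneg (hil n u), norm_nonneg (hil n k),
        mul_nonneg hb (norm_nonneg (hil n k))]
    · rw [map_add, map_smul, lp.coeFn_add, lp.coeFn_smul, pre_add, pre_smul]
      refine (hpre l).trans (max_le ?_ ?_)
      · refine Real.le_sqrt_of_sq_le ?_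
        have := abs_pre_hil_le u l
        nlinarith [abs_nonneg (pre (hil n u) l), sq_nonneg (b * M)]
      · refine Real.le_sqrt_of_sq_le ?_
        have := mul_le_mul_of_nonneg_left ((abs_pre_hil_le k l).trans hk) hb
        nlinarith [mul_nonneg hb (abs_nonneg (pre (hil n k) l)), sq_nonneg ‖u‖]
  calc ‖u + b • k‖ ^ 2 ≤ √(‖u‖ ^ 2 + b ^ 2 * M ^ 2) ^ 2 := pow_le_pow_left₀ (norm_nonneg _) h 2
    _ = ‖u‖ ^ 2 + b ^ 2 * M ^ 2 := Real.sq_sqrt hR

/-- The sign splitting in one block. -/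
theorem exists_block_split {n : ℕ} {S : Finset (List ℕ)} (hS : Closed S) {u h : Blk n}
    (hu : ∀ l, l ∉ S → hil n u l = 0) (hh : ∀ l ∈ S, hil n h l = 0) :
    ∃ k k' : Blk n, k - k' = h ∧ ‖k‖ ≤ ‖h‖ ∧ ‖k'‖ ≤ ‖h‖ ∧
      (∀ l ∈ S, hil n k l = 0 ∧ hil n k' l = 0) ∧
      ∀ b : ℝ, 0 ≤ b → ‖u + b • k‖ ^ 2 ≤ ‖u‖ ^ 2 + b ^ 2 * ‖h‖ ^ 2 ∧
        ‖u + b • k'‖ ^ 2 ≤ ‖u‖ ^ 2 + b ^ 2 * ‖h‖ ^ 2 := by
  set c := pre (hil n u) with hc
  set B := pre (hil n h) with hB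
  have hd := abs_incr_opp_le hS hu hh
  set v : Hil := dominated (hil n h) (incr (opp c B)) fun l => (hd l).1 with hv
  set v' : Hil := dominated (hil n h) (incr fun k => opp c B k - B k) fun l => (hd l).2 with hv'
  have hsupp : ∀ w : Hil, (∀ l, |w l| ≤ |hil n h l|) → trunc n w = w := fun w hw => by
    ext l
    rw [trunc_apply]
    split_ifs with hl
    · rfl
    · have := hw l
      rw [supp h l (by omega), abs_zero] at this
      exact (abs_nonpos_iff.1 this).symm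
  set k := emb n v with hk
  set k' := emb n v' with hk'
  have hkv : hil n k = v := by rw [hk, hil_emb]; exact hsupp v fun l => (hd l).1
  have hkv' : hil n k' = v' := by rw [hk', hil_emb]; exact hsupp v' fun l => (hd l).2
  have hp : ∀ l, pre (hil n k) l = opp c B l := fun l => by rw [hkv]; exact pre_incr _ l
  have hp' : ∀ l, pre (hil n k') l = opp c B l - B l := fun l => by
    rw [hkv']; exact pre_incr (fun k => opp c B k - B k) l
  have hn : ‖k‖ ≤ ‖h‖ := by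
    refine blk_norm_le _ (norm_nonneg _) ?_ fun l => ?_
    · rw [hkv]; exact (norm_dominated_le _ _ _).trans (norm_hil_le h)
    · rw [hp]; exact (abs_opp_le c B l).trans (abs_pre_hil_le h l)
  have hn' : ‖k'‖ ≤ ‖h‖ := by
    refine blk_norm_le _ (norm_nonneg _) ?_ fun l => ?_
    · rw [hkv']; exact (norm_dominated_le _ _ _).trans (norm_hil_le h)
    · rw [hp', abs_sub_comm]; exact (abs_sub_opp_le c B l).trans (abs_pre_hil_le h l)
  have hvan : ∀ l ∈ S, hil n k l = 0 ∧ hil n k' l = 0 := fun l hl => by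
    have h1 := (hd l).1
    have h2 := (hd l).2
    rw [hh l hl, abs_zero, abs_nonpos_iff] at h1 h2
    exact ⟨by rw [hkv]; exact h1, by rw [hkv']; exact h2⟩
  refine ⟨k, k', blk_ext ?_, hn, hn', hvan, fun b hb => ⟨?_, ?_⟩⟩
  · rw [map_sub, hkv, hkv']
    ext l
    rw [lp.coeFn_sub, Pi.sub_apply]
    change incr (opp c B) l - incr (fun k => opp c B k - B k) l = hil n h l
    cases l with
    | nil => simp [incr, hB, pre]
    | cons j l => simp [incr, hB, pre]; ring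
  · refine norm_add_smul_le hb hn (fun l => ?_) fun l => ?_
    · by_cases hl : l ∈ S
      · rw [(hvan l hl).1, mul_zero]
      · rw [hu l hl, zero_mul]
    · rw [hp]; exact abs_add_opp_le hb l
  · refine norm_add_smul_le hb hn' (fun l => ?_) fun l => ?_
    · by_cases hl : l ∈ S
      · rw [(hvan l hl).2, mul_zero]
      · rw [hu l hl, zero_mul]
    · rw [hp']; exact abs_sub_rest_le hb l

/-- The restriction of an element of `Y` to `S` in the blocks below `K`. -/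
noncomputable def res (K : ℕ) (S : Finset (List ℕ)) (g : Y) : Y :=
  ∑ n ∈ Finset.range K, incl n (∑ l ∈ S, hil n (g n) l • emb n (lp.single 2 l (1 : ℝ)))

theorem hil_res (K : ℕ) (S : Finset (List ℕ)) (g : Y) (m : ℕ) (i : List ℕ) :
    hil m ((res K S g) m) i = if m < K ∧ i ∈ S then hil m (g m) i else 0 := by
  classical
  have e : (res K S g) m
      = if m < K then ∑ l ∈ S, hil m (g m) l • emb m (lp.single 2 l (1 : ℝ)) else 0 := by
    have e1 : (res K S g) m = ∑ n ∈ Finset.range K,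
        proj m (incl n (∑ l ∈ S, hil n (g n) l • emb n (lp.single 2 l (1 : ℝ)))) := by
      rw [← map_sum]
      rfl
    rw [e1]
    by_cases hm : m < K
    · rw [if_pos hm, Finset.sum_eq_single m]
      · exact proj_incl m _
      · intro n _ hne
        exact proj_incl_ne (Ne.symm hne) _
      · intro hcon
        exact absurd (Finset.mem_range.2 hm) hcon
    · rw [if_neg hm]
      refine Finset.sum_eq_zero fun n hn => proj_incl_ne ?_ _
      have := Finset.mem_range.1 hn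
      omega
  rw [e]
  by_cases hm : m < K
  · rw [if_pos hm, map_sum, lp.coeFn_sum, Finset.sum_apply]
    simp only [map_smul, lp.coeFn_smul, Pi.smul_apply, hil_emb, trunc_apply, smul_eq_mul,
      lp.single_apply]
    by_cases hi : i.length ≤ m
    · simp [hm, hi, Pi.single_apply]
    · simp [hi, supp (g m) i (by omega)]
  · simp [hm]

theorem norm_res_le {K : ℕ} {S : Finset (List ℕ)} (hS : Closed S) (g : Y) :
    ‖res K S g‖ ≤ ‖g‖ := by
  refine lp.norm_mono (by norm_num) fun m => ?_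
  refine blk_norm_le _ (norm_nonneg _) ?_ fun l => ?_
  · refine le_trans ?_ (norm_hil_le (g m))
    refine lp.norm_mono (by norm_num) fun i => ?_
    rw [hil_res]
    split_ifs <;> simp
  · by_cases hm : m < K
    · have e : (⇑(hil m ((res K S g) m)) : List ℕ → ℝ)
          = fun k => if k ∈ S then hil m (g m) k else 0 := by
        funext k; rw [hil_res]; simp [hm]
      rw [e]
      rcases pre_restrict_exists hS (hil m (g m)) l with ⟨i, hi⟩ | h0
      · rw [hi]; exact abs_pre_hil_le (g m) i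
      · rw [h0]; simp
    · have e : (⇑(hil m ((res K S g) m)) : List ℕ → ℝ) = 0 := by
        funext k; rw [hil_res]; simp [hm]
      rw [e, pre_zero]; simp

/-- The sign splitting in `Y`. -/
theorem exists_split {K : ℕ} {S : Finset (List ℕ)} (hS : Closed S) {f h : Y}
    (hf : ∀ n l, ¬(n < K ∧ l ∈ S) → hil n (f n) l = 0)
    (hh : ∀ n, n < K → ∀ l ∈ S, hil n (h n) l = 0) :
    ∃ k k' : Y, k - k' = h ∧ ‖k‖ ≤ ‖h‖ ∧ ‖k'‖ ≤ ‖h‖ ∧
      (∀ n, n < K → ∀ l ∈ S, hil n (k n) l = 0 ∧ hil n (k' n) l = 0) ∧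
      ∀ b : ℝ, 0 ≤ b → ‖f + b • k‖ ^ 2 ≤ ‖f‖ ^ 2 + b ^ 2 * ‖h‖ ^ 2 ∧
        ‖f + b • k'‖ ^ 2 ≤ ‖f‖ ^ 2 + b ^ 2 * ‖h‖ ^ 2 := by
  have hb : ∀ n, ∃ k k' : Blk n, k - k' = h n ∧ ‖k‖ ≤ ‖h n‖ ∧ ‖k'‖ ≤ ‖h n‖ ∧
      (∀ l ∈ (if n < K then S else ∅), hil n k l = 0 ∧ hil n k' l = 0) ∧
      ∀ b : ℝ, 0 ≤ b → ‖f n + b • k‖ ^ 2 ≤ ‖f n‖ ^ 2 + b ^ 2 * ‖h n‖ ^ 2 ∧
        ‖f n + b • k'‖ ^ 2 ≤ ‖f n‖ ^ 2 + b ^ 2 * ‖h n‖ ^ 2 := by
    intro n
    refine exists_block_split ?_ ?_ ?_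
    · split_ifs
      · exact hS
      · intro j l hl; simp at hl
    · intro l hl
      refine hf n l fun hc => hl ?_
      rw [if_pos hc.1]; exact hc.2
    · intro l hl
      split_ifs at hl with hn
      · exact hh n hn l hl
      · simp at hl
  choose k k' h1 h2 h3 h4 h5 using hb
  set kk : Y := ⟨k, (lp.memℓp h).mono' h2⟩ with hkk
  set kk' : Y := ⟨k', (lp.memℓp h).mono' h3⟩ with hkk'
  refine ⟨kk, kk', ?_, lp.norm_mono (by norm_num) h2, lp.norm_mono (by norm_num) h3, ?_, ?_⟩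
  · ext1
    funext n
    exact h1 n
  · intro n hn l hl
    exact h4 n l (by rw [if_pos hn]; exact hl)
  · intro b hb
    refine ⟨hasSum_le (fun n => ?_) (norm_sq_eq _)
      ((norm_sq_eq f).add ((norm_sq_eq h).mul_left (b ^ 2))),
      hasSum_le (fun n => ?_) (norm_sq_eq _)
      ((norm_sq_eq f).add ((norm_sq_eq h).mul_left (b ^ 2)))⟩
    · exact (h5 n b hb).1
    · exact (h5 n b hb).2

theorem exists_almost_norming (x : X) (hx : ‖x‖ = 1) {ε : ℝ} (hε : 0 < ε) :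
    ∃ g : Y, ‖g‖ ≤ 1 ∧ 1 - ε ≤ x g := by
  obtain ⟨g, hg1, hg2⟩ := x.exists_lt_apply_of_lt_opNorm (r := 1 - ε) (by rw [hx]; linarith)
  rw [Real.norm_eq_abs] at hg2
  rcases le_total 0 (x g) with h | h
  · rw [abs_of_nonneg h] at hg2
    exact ⟨g, hg1.le, hg2.le⟩
  · rw [abs_of_nonpos h] at hg2
    exact ⟨-g, by rw [norm_neg]; exact hg1.le, by rw [map_neg]; exact hg2.le⟩

/-- The functional that evaluates at one node of one block. -/
noncomputable def nodeEval (p : ℕ × List ℕ) : X →L[ℝ] ℝ :=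
  ContinuousLinearMap.apply ℝ ℝ (incl p.1 (emb p.1 (lp.single 2 p.2 (1 : ℝ))))

theorem nodeEval_apply (n : ℕ) (l : List ℕ) (y : X) :
    nodeEval (n, l) y = y (incl n (emb n (lp.single 2 l (1 : ℝ)))) := rfl

theorem cofinite_ker (P : Finset (ℕ × List ℕ)) :
    ∃ F : Submodule ℝ X, (IsClosed (F : Set X) ∧ FiniteDimensional ℝ (X ⧸ F)) ∧
      ∀ y ∈ F, ∀ p ∈ P, nodeEval p y = 0 := by
  set Φ : X →L[ℝ] (↥P → ℝ) := ContinuousLinearMap.pi fun p => nodeEval p.1 with hΦ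
  have hfin : FiniteDimensional ℝ (↥P → ℝ) := Module.Finite.pi
  have hrange : Module.Finite ℝ ↥(LinearMap.range Φ.toLinearMap) :=
    Submodule.finiteDimensional_of_le le_top
  refine ⟨LinearMap.ker Φ.toLinearMap, ⟨Φ.isClosed_ker, ?_⟩, fun y hy p hp => ?_⟩
  · exact Φ.toLinearMap.quotKerEquivRange.symm.finiteDimensional
  · exact congrFun (LinearMap.mem_ker.1 hy) ⟨p, hp⟩

theorem num_step {τ t a u q r : ℝ} (hτ0 : 0 < τ) (hτ1 : τ ≤ 1) (hτt : τ ≤ t)
    (hu : 1 - 3 * (τ ^ 2 / 1000) ≤ u) (hq : -(τ ^ 2 / 1000 * 2) ≤ q)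
    (hr : (1 - τ ^ 2 / 1000) / 2 ≤ r) (ha : a = u + τ / 16 * q + t * (τ / 16) * r) :
    1 + τ ^ 2 / 32 - τ ^ 2 / 200 ≤ a := by
  have hτ2 : τ ^ 2 ≤ 1 := by nlinarith
  have hb : 0 ≤ τ / 16 := by positivity
  have hr0 : 0 ≤ (1 - τ ^ 2 / 1000) / 2 := by linarith
  have h1 : τ * (τ / 16) ≤ t * (τ / 16) := mul_le_mul_of_nonneg_right hτt hb
  have h2 : τ * (τ / 16) * ((1 - τ ^ 2 / 1000) / 2) ≤ t * (τ / 16) * r :=
    mul_le_mul h1 hr hr0 (mul_nonneg (hτ0.le.trans hτt) hb)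
  have h3 : τ / 16 * -(τ ^ 2 / 1000 * 2) ≤ τ / 16 * q := mul_le_mul_of_nonneg_left hq hb
  have h4 : τ ^ 2 * τ ≤ τ ^ 2 * 1 := mul_le_mul_of_nonneg_left hτ1 (sq_nonneg τ)
  have h5 : τ ^ 2 * τ ^ 2 ≤ τ ^ 2 * 1 := mul_le_mul_of_nonneg_left hτ2 (sq_nonneg τ)
  nlinarith

theorem norm_amuc (t : ℝ) (ht : 0 < t) :
    ∃ δ : ℝ, 0 < δ ∧ ∀ x : X, ‖x‖ = 1 → ∃ F : Submodule ℝ X,
      (IsClosed (F : Set X) ∧ FiniteDimensional ℝ (X ⧸ F)) ∧
        ∀ y ∈ F, ‖y‖ = 1 → δ ≤ max ‖x + t • y‖ ‖x - t • y‖ - 1 := by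
  obtain ⟨τ, hτ0, hτ1, hτt⟩ : ∃ τ : ℝ, 0 < τ ∧ τ ≤ 1 ∧ τ ≤ t :=
    ⟨min t 1, lt_min ht one_pos, min_le_right _ _, min_le_left _ _⟩
  have hb : 0 ≤ τ / 16 := by positivity
  have hε : 0 < τ ^ 2 / 1000 := by positivity
  have hε1 : τ ^ 2 / 1000 ≤ 1 / 1000 := by nlinarith
  refine ⟨τ ^ 2 / 128, by positivity, fun x hx => ?_⟩
  obtain ⟨K, S, hS, hKS⟩ := exists_finite_support x hε
  obtain ⟨g0, hg01, hg02⟩ := exists_almost_norming x hx hε
  set f := res K S g0 with hfd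
  have hf1 : ‖f‖ ≤ 1 := (norm_res_le hS g0).trans hg01
  have hvan : ∀ g : Y, ∀ n, n < K → ∀ l ∈ S, hil n ((g - res K S g) n) l = 0 := by
    intro g n hn l hl
    rw [lp.coeFn_sub, Pi.sub_apply, map_sub, lp.coeFn_sub, Pi.sub_apply, hil_res,
      if_pos ⟨hn, hl⟩, sub_self]
  have hxf : 1 - 3 * (τ ^ 2 / 1000) ≤ x f := by
    have h1 := hKS (g0 - f) (hvan g0)
    have h2 : ‖g0 - f‖ ≤ 2 := (norm_sub_le _ _).trans (by linarith)
    rw [map_sub] at h1
    have h3 := le_abs_self (x g0 - x f)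
    nlinarith
  classical
  obtain ⟨F, hF, hFev⟩ := cofinite_ker (Finset.range K ×ˢ S)
  refine ⟨F, hF, fun y hyF hy => ?_⟩
  have hy0 : ∀ g : Y, y (res K S g) = 0 := by
    intro g
    simp only [res, map_sum, map_smul]
    refine Finset.sum_eq_zero fun n hn => Finset.sum_eq_zero fun l hl => ?_
    have h0 : nodeEval (n, l) y = 0 := hFev y hyF (n, l) (Finset.mem_product.2 ⟨hn, hl⟩)
    rw [← nodeEval_apply, h0, smul_zero]
  obtain ⟨g, hg1, hg2⟩ := exists_almost_norming y hy hε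
  set h := g - res K S g with hhd
  have hh2 : ‖h‖ ≤ 2 := (norm_sub_le _ _).trans (by linarith [norm_res_le (K := K) hS g])
  have hyh : 1 - τ ^ 2 / 1000 ≤ y h := by rw [hhd, map_sub, hy0, sub_zero]; exact hg2
  obtain ⟨k, k', hkk, hk, hk', hkv, hest⟩ := exists_split hS
    (f := f) (h := h) (fun n l hnl => by rw [hfd, hil_res, if_neg hnl]) (hvan g)
  have hxk : |x k| ≤ τ ^ 2 / 1000 * 2 :=
    (hKS k fun n hn l hl => (hkv n hn l hl).1).trans
      (mul_le_mul_of_nonneg_left (hk.trans hh2) hε.le)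
  have hxk' : |x k'| ≤ τ ^ 2 / 1000 * 2 :=
    (hKS k' fun n hn l hl => (hkv n hn l hl).2).trans
      (mul_le_mul_of_nonneg_left (hk'.trans hh2) hε.le)
  have hnorm : ∀ z : Y, ‖z‖ ^ 2 ≤ ‖f‖ ^ 2 + (τ / 16) ^ 2 * ‖h‖ ^ 2 →
      ‖z‖ ≤ 1 + τ ^ 2 / 128 := fun z hz => by
    nlinarith [norm_nonneg z, norm_nonneg f, norm_nonneg h,
      mul_le_mul hh2 hh2 (norm_nonneg h) (by norm_num : (0 : ℝ) ≤ 2)]
  have hnum : ∀ (w z : X) (v : Y), ‖v‖ ≤ 1 + τ ^ 2 / 128 →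
      1 + τ ^ 2 / 32 - τ ^ 2 / 200 ≤ w v → ‖w‖ ≤ ‖z‖ → τ ^ 2 / 128 ≤ ‖z‖ - 1 := by
    intro w z v hv hw hwz
    have h1 : w v ≤ ‖z‖ * (1 + τ ^ 2 / 128) :=
      calc w v ≤ ‖w v‖ := le_abs_self _
        _ ≤ ‖w‖ * ‖v‖ := w.le_opNorm v
        _ ≤ ‖z‖ * (1 + τ ^ 2 / 128) := mul_le_mul hwz hv (norm_nonneg _) (norm_nonneg _)
    by_contra hcon
    rw [not_le] at hcon
    have h2 : ‖z‖ * (1 + τ ^ 2 / 128) ≤ (1 + τ ^ 2 / 128) * (1 + τ ^ 2 / 128) :=
      mul_le_mul_of_nonneg_right (by linarith) (by positivity)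
    nlinarith
  have hsplit : y h = y k - y k' := by rw [← map_sub, hkk]
  by_cases hcase : (1 - τ ^ 2 / 1000) / 2 ≤ y k
  · have := hnum (x + t • y) (x + t • y) (f + (τ / 16) • k) (hnorm _ (hest _ hb).1) ?_ le_rfl
    · linarith [le_max_left ‖x + t • y‖ ‖x - t • y‖]
    · have hval : (x + t • y) (f + (τ / 16) • k)
          = x f + τ / 16 * x k + t * (τ / 16) * y k := by
        have hyf : y f = 0 := hy0 g0
        simp only [add_apply, sub_apply, smul_apply, map_add, map_smul, smul_eq_mul, hyf]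
        ring
      exact num_step hτ0 hτ1 hτt hxf (abs_le.1 hxk).1 hcase hval
  · have := hnum (x - t • y) (x - t • y) (f + (τ / 16) • k') (hnorm _ (hest _ hb).2) ?_ le_rfl
    · linarith [le_max_right ‖x + t • y‖ ‖x - t • y‖]
    · have hval : (x - t • y) (f + (τ / 16) • k')
          = x f + τ / 16 * x k' + t * (τ / 16) * (-(y k')) := by
        have hyf : y f = 0 := hy0 g0
        simp only [add_apply, sub_apply, smul_apply, map_add, map_smul, smul_eq_mul, hyf]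
        ring
      have hc2 : (1 - τ ^ 2 / 1000) / 2 ≤ -(y k') := by linarith
      exact num_step hτ0 hτ1 hτt hxf (abs_le.1 hxk').1 hc2 hval

end Vale.Agent.P069
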