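import Vale.Agent.P069.Midpoint
import Vale.Agent.P069.Defs

/-!
# No equivalent norm of `X` is asymptotically uniformly convex
-/

namespace Vale.Agent.P069

open Filter Topology

/-- A sequence that is weakly null approaches every closed subspace of finite codimension. -/
theorem exists_near_cof {V : Type*} [NormedAddCommGroup V] [NormedSpace ℝ V] {F : Submodule ℝ V}
    (hF : IsClosed (F : Set V)) (hfin : FiniteDimensional ℝ (V ⧸ F)) (e : ℕ → V)
    (he : ∀ φ : StrongDual ℝ V, Tendsto (fun j => φ (e j)) atTop (𝓝 0)) {η : ℝ} (hη : 0 < η) :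
    ∃ j, ∃ y ∈ F, ‖e j - y‖ ≤ η := by
  have : IsClosed (F : Set V) := hF
  obtain ⟨s, hs⟩ := LinearMap.exists_rightInverse_of_surjective F.mkQ
    (LinearMap.range_eq_top.2 F.mkQ_surjective)
  have hs' : ∀ z, F.mkQ (s z) = z := fun z => LinearMap.congr_fun hs z
  let b := Module.finBasis ℝ (V ⧸ F)
  have hq : Tendsto (fun j => s (F.mkQ (e j))) atTop (𝓝 0) := by
    have hsum : ∀ v : V, s (F.mkQ v) = ∑ i, b.coord i (F.mkQ v) • s (b i) := by
      intro v
      conv_lhs => rw [← b.sum_repr (F.mkQ v), map_sum]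
      simp only [map_smul, Module.Basis.coord_apply]
    simp only [hsum]
    have h0 : (0 : V) = ∑ i, (0 : ℝ) • s (b i) := by simp
    rw [h0]
    refine tendsto_finsetSum _ fun i _ => Tendsto.smul_const ?_ _
    exact he ⟨(b.coord i).comp F.mkQ,
      (LinearMap.continuous_of_finiteDimensional (b.coord i)).comp continuous_quot_mk⟩
  rw [Metric.tendsto_nhds] at hq
  obtain ⟨j, hj⟩ := (hq η hη).exists
  refine ⟨j, e j - s (F.mkQ (e j)), ?_, ?_⟩
  · rw [← Submodule.Quotient.mk_eq_zero F]
    simpa using sub_eq_zero.2 (hs' (F.mkQ (e j))).symm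
  · rw [sub_sub_cancel]
    rw [dist_zero_right] at hj
    exact hj.le

/-- The coordinate at a node, as an element of `X`. -/
noncomputable def coordF (n : ℕ) (l : List ℕ) : X :=
  (lp.evalCLM ℝ (fun _ : List ℕ => ℝ) 2 l).comp ((hil n).comp (proj n))

theorem coordF_apply (n : ℕ) (l : List ℕ) (f : Y) : coordF n l f = hil n (f n) l := rfl

/-- The branch sum up to a node, as an element of `X`. -/
noncomputable def branch (n : ℕ) : List ℕ → X
  | [] => coordF n []
  | j :: l => coordF n (j :: l) + branch n l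

theorem branch_apply (n : ℕ) : ∀ (l : List ℕ) (f : Y), branch n l f = pre (hil n (f n)) l
  | [], f => rfl
  | j :: l, f => by
    simp only [branch, pre, add_apply, branch_apply n l f, coordF_apply]

theorem norm_branch_le (n : ℕ) (l : List ℕ) : ‖branch n l‖ ≤ 1 := by
  refine ContinuousLinearMap.opNorm_le_bound _ zero_le_one fun f => ?_
  rw [branch_apply, Real.norm_eq_abs, one_mul]
  exact (abs_pre_hil_le (f n) l).trans (lp.norm_apply_le_norm (by norm_num) f n)

theorem pre_single (l : List ℕ) : ∀ m : List ℕ,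
    pre (⇑(lp.single 2 l (1 : ℝ) : Hil)) m = if l <:+ m then 1 else 0
  | [] => by
    simp only [pre, lp.single_apply, Pi.single_apply, List.suffix_nil]
    simp only [eq_comm]
  | a :: m => by
    simp only [pre, pre_single l m, lp.single_apply, Pi.single_apply, List.suffix_cons_iff]
    by_cases h : a :: m = l
    · have hn : ¬ l <:+ m := fun hc => by
        have := hc.length_le
        rw [← h] at this
        simp at this
      simp [h, hn]
    · have h' : ¬ l = a :: m := fun hc => h hc.symm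
      simp [h, h']

theorem single_node (n : ℕ) {l : List ℕ} (hl : l.length ≤ n) :
    hil n (emb n (lp.single 2 l (1 : ℝ))) = lp.single 2 l (1 : ℝ) := by
  rw [hil_emb]
  ext k
  rw [trunc_apply]
  split_ifs with hk
  · rfl
  · rw [lp.single_apply_ne]
    intro hkl
    rw [hkl] at hk
    exact hk hl

theorem norm_node_le (n : ℕ) {l : List ℕ} (hl : l.length ≤ n) :
    ‖incl n (emb n (lp.single 2 l (1 : ℝ)))‖ ≤ 1 := by
  rw [norm_incl]
  refine blk_norm_le _ zero_le_one ?_ fun m => ?_
  · rw [single_node n hl, lp.norm_single (by norm_num), norm_one]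
  · rw [single_node n hl, pre_single]
    split_ifs <;> simp

theorem one_le_norm_coordF (n : ℕ) {l : List ℕ} (hl : l.length ≤ n) : 1 ≤ ‖coordF n l‖ := by
  have h := (coordF n l).le_of_opNorm_le le_rfl (incl n (emb n (lp.single 2 l (1 : ℝ))))
  rw [coordF_apply, ← proj_apply, proj_incl, single_node n hl, lp.single_apply_self, norm_one] at h
  exact h.trans (mul_le_of_le_one_right (norm_nonneg _) (norm_node_le n hl))

theorem one_le_norm_branch (n : ℕ) (l : List ℕ) : 1 ≤ ‖branch n l‖ := by
  have hl : ([] : List ℕ).length ≤ n := by simp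
  have h := (branch n l).le_of_opNorm_le le_rfl (incl n (emb n (lp.single 2 ([] : List ℕ) (1 : ℝ))))
  rw [branch_apply, ← proj_apply, proj_incl, single_node n hl, pre_single,
    if_pos (List.nil_suffix (l := l)), norm_one] at h
  exact h.trans (mul_le_of_le_one_right (norm_nonneg _) (norm_node_le n hl))

theorem tendsto_coordF (n : ℕ) (l : List ℕ) (φ : StrongDual ℝ X) :
    Tendsto (fun j => φ (coordF n (j :: l))) atTop (𝓝 0) := by
  obtain ⟨y, hy⟩ := reflexive_Y φ
  simp only [hy, coordF_apply]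
  have h := (norm_hil_sq (hil n (y n))).summable.tendsto_cofinite_zero
  have hinj : Function.Injective fun j : ℕ => j :: l := fun a b hab => by simpa using hab
  have h2 := h.comp hinj.tendsto_cofinite
  rw [Nat.cofinite_eq_atTop] at h2
  have h3 := h2.sqrt
  rw [Real.sqrt_zero] at h3
  rw [tendsto_zero_iff_abs_tendsto_zero]
  refine h3.congr fun j => ?_
  simp [Real.sqrt_sq_eq_abs]

theorem not_finiteDimensional : ¬ FiniteDimensional ℝ X := by
  intro h
  have hq : FiniteDimensional ℝ (X ⧸ (⊥ : Submodule ℝ X)) :=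
    Module.Finite.quotient ℝ _
  have hcl : IsClosed ((⊥ : Submodule ℝ X) : Set X) := Submodule.closed_of_finiteDimensional _
  obtain ⟨j, y, hy, hle⟩ := exists_near_cof hcl hq (fun j => coordF 1 [j])
    (fun φ => tendsto_coordF 1 [] φ) (by norm_num : (0 : ℝ) < 1 / 2)
  rw [Submodule.mem_bot] at hy
  rw [hy, sub_zero] at hle
  linarith [one_le_norm_coordF 1 (l := [j]) (by simp)]

/-- In an equivalent norm with positive AUC modulus the branch sums would grow linearly. -/
theorem not_isAUC {N : X → ℝ} (hN : IsEquivalentNorm X N) : ¬ IsAUC X N := by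
  intro hA
  obtain ⟨htri, hhom, c, C, hc, hbd⟩ := hN
  have hN1 : ∀ v : X, 1 ≤ ‖v‖ → c ≤ N v := fun v hv =>
    (le_mul_of_one_le_right hc.le hv).trans (hbd v).1
  have hN2 : ∀ v : X, ‖v‖ ≤ 1 → N v ≤ |C| := fun v hv =>
    (hbd v).2.trans ((mul_le_mul_of_nonneg_right (le_abs_self C) (norm_nonneg v)).trans
      (mul_le_of_le_one_right (abs_nonneg C) hv))
  have hC : 0 < |C| :=
    hc.trans_le ((hN1 _ (one_le_norm_branch 0 [])).trans (hN2 _ (norm_branch_le 0 [])))
  have ht0 : 0 < c / (2 * |C|) := by positivity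
  obtain ⟨δ, hδ0, hδ⟩ := EReal.lt_iff_exists_real_btwn.1 (hA _ ht0)
  have hδ0' : 0 < δ := by exact_mod_cast hδ0
  have hmod : ∀ x : X, N x = 1 → ∃ F ∈ cof X, ∀ y ∈ F, N y = 1 →
      1 + δ ≤ N (x + (c / (2 * |C|)) • y) := by
    intro x hx
    have h1 := lt_of_lt_of_le hδ (iInf₂_le (f := fun (x : X) (_ : N x = 1) =>
      ⨆ F ∈ cof X, ⨅ (y : X) (_ : y ∈ F ∧ N y = 1),
        ((N (x + (c / (2 * |C|)) • y) - 1 : ℝ) : EReal)) x hx)
    simp only [lt_iSup_iff] at h1
    obtain ⟨F, hF, h2⟩ := h1
    refine ⟨F, hF, fun y hy hy1 => ?_⟩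
    have h3 : (δ : EReal) < ((N (x + (c / (2 * |C|)) • y) - 1 : ℝ) : EReal) :=
      lt_of_lt_of_le h2 (iInf₂_le y ⟨hy, hy1⟩)
    have h4 : δ < N (x + (c / (2 * |C|)) • y) - 1 := by exact_mod_cast h3
    linarith
  obtain ⟨n, hn⟩ := exists_nat_gt (|C| / (c * δ / 2))
  have hstep : ∀ l : List ℕ, l.length < n →
      ∃ j : ℕ, N (branch n l) + c * δ / 2 ≤ N (branch n (j :: l)) := by
    intro l hl
    set u := branch n l with hu
    set a := N u with ha
    have ha0 : c ≤ a := hN1 u (one_le_norm_branch n l)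
    have ha1 : a ≤ |C| := hN2 u (norm_branch_le n l)
    have hapos : 0 < a := hc.trans_le ha0
    have hx : N (a⁻¹ • u) = 1 := by
      rw [hhom, abs_inv, abs_of_pos hapos, inv_mul_cancel₀ hapos.ne']
    obtain ⟨F, ⟨hFc, hFd⟩, hFy⟩ := hmod _ hx
    set η := min (c / 2) (c * δ / 2) with hη
    have hη0 : 0 < η := lt_min (by positivity) (by positivity)
    obtain ⟨j, y, hyF, hjy⟩ := exists_near_cof hFc hFd (fun j => coordF n (j :: l))
      (tendsto_coordF n l) (div_pos hη0 hC)
    refine ⟨j, ?_⟩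
    set e := coordF n (j :: l) with he
    have hr : N (e - y) ≤ η := by
      refine (hbd _).2.trans ((mul_le_mul_of_nonneg_right (le_abs_self C) (norm_nonneg _)).trans ?_)
      exact (mul_le_mul_of_nonneg_left hjy (abs_nonneg C)).trans
        (le_of_eq (mul_div_cancel₀ η hC.ne'))
    have hr' : N (y - e) ≤ η := by
      have : y - e = (-1 : ℝ) • (e - y) := by simp
      rw [this, hhom]
      simpa using hr
    have hey : N e ≤ N y + N (e - y) := by
      have := htri y (e - y)
      rwa [add_sub_cancel] at this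
    have he1 : c ≤ N e := hN1 e (one_le_norm_coordF n (by simp; omega))
    have hy0 : c / 2 ≤ N y := by linarith [min_le_left (c / 2) (c * δ / 2)]
    have hypos : 0 < N y := by linarith
    have hy1 : N ((N y)⁻¹ • y) = 1 := by
      rw [hhom, abs_inv, abs_of_pos hypos, inv_mul_cancel₀ hypos.ne']
    have key := hFy _ (F.smul_mem _ hyF) hy1
    set θ := c / (2 * |C|) * a / N y with hθ
    have hθ0 : 0 < θ := by positivity
    have hθ1 : θ ≤ 1 := by
      rw [hθ, div_le_one hypos, div_mul_eq_mul_div, div_le_iff₀ (by positivity)]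
      nlinarith
    have hdec : a⁻¹ • u + (c / (2 * |C|)) • ((N y)⁻¹ • y)
        = (1 - θ) • (a⁻¹ • u) + (θ * a⁻¹) • (u + y) := by
      rw [smul_smul, smul_smul, smul_add, hθ]
      match_scalars <;> field_simp <;> ring
    have hconv : 1 + δ ≤ (1 - θ) + θ * a⁻¹ * N (u + y) := by
      rw [hdec] at key
      refine key.trans ((htri _ _).trans (le_of_eq ?_))
      rw [hhom (1 - θ), hhom (θ * a⁻¹), hx, abs_of_nonneg (by linarith : (0 : ℝ) ≤ 1 - θ),
        abs_of_pos (mul_pos hθ0 (inv_pos.2 hapos)), mul_one]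
    have hgrow : a + c * δ ≤ N (u + y) := by
      have h1 : a * (θ + δ) ≤ θ * N (u + y) := by
        have := mul_le_mul_of_nonneg_left hconv hapos.le
        have h2 : a * (θ * a⁻¹ * N (u + y)) = θ * N (u + y) := by field_simp
        nlinarith
      by_contra hcon
      rw [not_le] at hcon
      have h3 : θ * (N (u + y) - a) < θ * (c * δ) :=
        mul_lt_mul_of_pos_left (by linarith) hθ0
      have h4 : θ * (c * δ) ≤ 1 * (a * δ) :=
        mul_le_mul hθ1 (mul_le_mul_of_nonneg_right ha0 hδ0'.le) (by positivity) zero_le_one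
      nlinarith
    have hb : branch n (j :: l) = u + e := by rw [hu, he, branch]; exact add_comm _ _
    have htri2 : N (u + y) ≤ N (u + e) + N (y - e) := by
      have := htri (u + e) (y - e)
      rwa [add_add_sub_cancel] at this
    rw [hb]
    linarith [min_le_right (c / 2) (c * δ / 2)]
  have hchain : ∀ k ≤ n, ∃ l : List ℕ, l.length = k ∧
      (k : ℝ) * (c * δ / 2) ≤ N (branch n l) := by
    intro k
    induction k with
    | zero =>
      intro _
      exact ⟨[], rfl, by simpa using hc.le.trans (hN1 _ (one_le_norm_branch n []))⟩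
    | succ k ih =>
      intro hk
      obtain ⟨l, hl, hNl⟩ := ih (by omega)
      obtain ⟨j, hj⟩ := hstep l (by omega)
      refine ⟨j :: l, by simp [hl], ?_⟩
      push_cast
      linarith
  obtain ⟨l, _, hl⟩ := hchain n le_rfl
  rw [div_lt_iff₀ (by positivity)] at hn
  linarith [hN2 _ (norm_branch_le n l)]

theorem not_aucRenormable : ¬ AUCRenormable X := fun ⟨_, h1, h2⟩ => not_isAUC h1 h2

theorem isEquivalentNorm_norm : IsEquivalentNorm X (fun x => ‖x‖) :=
  ⟨norm_add_le, fun a x => (norm_smul a x).trans (by rw [Real.norm_eq_abs]), 1, 1, one_pos,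
    fun x => by simp⟩

theorem isAMUC_norm : IsAMUC X (fun x => ‖x‖) := by
  intro t ht
  obtain ⟨δ, hδ, h⟩ := norm_amuc t ht
  refine lt_of_lt_of_le (EReal.coe_pos.2 hδ) ?_
  refine le_iInf₂ fun x hx => ?_
  obtain ⟨F, hF, hy⟩ := h x hx
  refine le_iSup₂_of_le F hF (le_iInf₂ fun y hy' => ?_)
  exact_mod_cast hy y hy'.1 hy'.2

theorem amucRenormable : AMUCRenormable X :=
  ⟨_, isEquivalentNorm_norm, isAMUC_norm⟩

end Vale.Agent.P069
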