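import Vale.Agent.P069.Space

/-!
# Approximation of functionals and reflexivity
-/

namespace Vale.Agent.P069

open scoped RealInnerProductSpace
open InnerProductSpace Filter Topology

/-- The head of an element of `Y`. -/
noncomputable def head (K : ℕ) (h : Y) : Y :=
  ∑ n ∈ Finset.range K, incl n (h n)

theorem head_apply (K : ℕ) (h : Y) (m : ℕ) :
    (head K h) m = if m < K then h m else 0 := by
  have e : (head K h) m = ∑ n ∈ Finset.range K, proj m (incl n (h n)) := by
    rw [← map_sum]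
    rfl
  rw [e]
  by_cases hm : m < K
  · rw [if_pos hm, Finset.sum_eq_single m]
    · exact proj_incl m _
    · intro n _ hne
      exact proj_incl_ne (Ne.symm hne) _
    · intro hcon
      exact absurd (Finset.mem_range.2 hm) hcon
  · rw [if_neg hm]
    refine Finset.sum_eq_zero fun n hn => proj_incl_ne ?_ _
    have := Finset.mem_range.1 hn
    omega

theorem tail_apply_lt {K : ℕ} (h : Y) {m : ℕ} (hm : m < K) : (h - head K h) m = 0 := by
  rw [lp.coeFn_sub, Pi.sub_apply, head_apply, if_pos hm, sub_self]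

theorem norm_tail_le (K : ℕ) (h : Y) : ‖h - head K h‖ ≤ ‖h‖ :=
  lp.norm_mono (by norm_num) fun m => by
    rw [lp.coeFn_sub, Pi.sub_apply, head_apply]
    split_ifs <;> simp

/-- The Cauchy-Schwarz bound for a finite combination of block functionals. -/
theorem abs_sum_blocks_le (s : Finset ℕ) (a : ∀ n, StrongDual ℝ (Blk n)) (h : Y) :
    |∑ n ∈ s, a n (h n)| ≤ √(∑ n ∈ s, ‖a n‖ ^ 2) * ‖h‖ := by
  calc |∑ n ∈ s, a n (h n)| ≤ ∑ n ∈ s, |a n (h n)| := Finset.abs_sum_le_sum_abs _ _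
    _ ≤ ∑ n ∈ s, ‖a n‖ * ‖h n‖ := Finset.sum_le_sum fun n _ => (a n).le_opNorm _
    _ ≤ √(∑ n ∈ s, ‖a n‖ ^ 2) * √(∑ n ∈ s, ‖h n‖ ^ 2) :=
      Real.sum_mul_le_sqrt_mul_sqrt _ _ _
    _ ≤ √(∑ n ∈ s, ‖a n‖ ^ 2) * ‖h‖ := by
      refine mul_le_mul_of_nonneg_left ?_ (Real.sqrt_nonneg _)
      rw [Real.sqrt_le_left (norm_nonneg _)]
      exact sum_sq_le h s

/-- The restriction of `x` to a block. -/
noncomputable def blkFun (x : X) (n : ℕ) : StrongDual ℝ (Blk n) :=
  x.comp (incl n)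

theorem blkFun_apply (x : X) (n : ℕ) (y : Blk n) : blkFun x n y = x (incl n y) := rfl

theorem sum_blkFun_sq_le (x : X) (s : Finset ℕ) :
    ∑ n ∈ s, ‖blkFun x n‖ ^ 2 ≤ ‖x‖ ^ 2 := by
  set Q := ∑ n ∈ s, ‖blkFun x n‖ ^ 2 with hQ
  have hQ0 : 0 ≤ Q := Finset.sum_nonneg fun n _ => sq_nonneg _
  have key : ∀ η : ℝ, 0 < η → Q - s.card * η ≤ ‖x‖ * √Q := by
    intro η hη
    have hz : ∀ n, ∃ z : Blk n,
        ‖z‖ ≤ ‖blkFun x n‖ ∧ ‖blkFun x n‖ ^ 2 - η ≤ blkFun x n z := by
      intro n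
      set a := blkFun x n with ha
      by_cases h0 : ‖a‖ ^ 2 ≤ η
      · exact ⟨0, by simp, by simp only [map_zero]; linarith⟩
      · have hpos : 0 < ‖a‖ := by nlinarith [norm_nonneg a]
        obtain ⟨z, hz1, hz2⟩ := a.exists_lt_apply_of_lt_opNorm
          (sub_lt_self ‖a‖ (div_pos hη hpos))
        rw [Real.norm_eq_abs] at hz2
        have hkey : ‖a‖ ^ 2 - η ≤ ‖a‖ * |a z| := by
          have := mul_le_mul_of_nonneg_left hz2.le hpos.le
          rwa [mul_sub, mul_div_cancel₀ _ hpos.ne', ← sq] at this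
        rcases le_total 0 (a z) with hs | hs
        · refine ⟨‖a‖ • z, ?_, ?_⟩
          · rw [norm_smul, norm_norm]
            exact mul_le_of_le_one_right hpos.le hz1.le
          · simpa [abs_of_nonneg hs] using hkey
        · refine ⟨-(‖a‖ • z), ?_, ?_⟩
          · rw [norm_neg, norm_smul, norm_norm]
            exact mul_le_of_le_one_right hpos.le hz1.le
          · simpa [abs_of_nonpos hs] using hkey
    choose z hz1 hz2 using hz
    set f : Y := ∑ n ∈ s, incl n (z n) with hf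
    have h1 : Q - s.card * η ≤ x f := by
      rw [hf, map_sum]
      calc Q - s.card * η = ∑ n ∈ s, (‖blkFun x n‖ ^ 2 - η) := by
            simp [hQ, Finset.sum_sub_distrib, nsmul_eq_mul]
        _ ≤ ∑ n ∈ s, x (incl n (z n)) := Finset.sum_le_sum fun n _ => hz2 n
    have h2 : ‖f‖ ≤ √Q := by
      refine Real.le_sqrt_of_sq_le ?_
      have := lp.norm_sum_single (E := fun n : ℕ => Blk n) (p := 2) (by norm_num) z s
      norm_num at this
      calc ‖f‖ ^ 2 = ∑ n ∈ s, ‖z n‖ ^ 2 := this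
        _ ≤ Q := Finset.sum_le_sum fun n _ => pow_le_pow_left₀ (norm_nonneg _) (hz1 n) 2
    calc Q - s.card * η ≤ x f := h1
      _ ≤ ‖x f‖ := le_abs_self _
      _ ≤ ‖x‖ * ‖f‖ := x.le_opNorm f
      _ ≤ ‖x‖ * √Q := mul_le_mul_of_nonneg_left h2 (norm_nonneg _)
  have h3 : Q ≤ ‖x‖ * √Q := by
    refine le_of_forall_pos_le_add fun e he => ?_
    have hc : (0 : ℝ) < s.card + 1 := by positivity
    have h4 := key (e / (s.card + 1)) (div_pos he hc)
    have h5 : (s.card : ℝ) * (e / (s.card + 1)) ≤ e := by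
      rw [← mul_div_assoc, div_le_iff₀ hc]
      nlinarith
    linarith
  have h6 := Real.sq_sqrt hQ0
  have h7 := Real.sqrt_nonneg Q
  nlinarith [norm_nonneg x, sq_nonneg (√Q - ‖x‖)]

theorem exists_block_tail (x : X) {ε : ℝ} (hε : 0 < ε) :
    ∃ K : ℕ, ∀ h : Y, (∀ n, n < K → h n = 0) → |x h| ≤ ε * ‖h‖ := by
  have hsum : Summable fun n => ‖blkFun x n‖ ^ 2 :=
    summable_of_sum_le (fun n => sq_nonneg _) (sum_blkFun_sq_le x)
  obtain ⟨s₀, hs₀⟩ := summable_iff_vanishing.1 hsum (Set.Iio (ε ^ 2))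
    (Iio_mem_nhds (by positivity))
  refine ⟨s₀.sup id + 1, fun h hh => ?_⟩
  have hlim : Tendsto (fun s : Finset ℕ => |∑ n ∈ s, blkFun x n (h n)|) atTop (𝓝 |x h|) :=
    ((hasSum_incl h).map x x.continuous).abs
  refine le_of_tendsto hlim (Eventually.of_forall fun s => ?_)
  have he : ∑ n ∈ s, blkFun x n (h n) = ∑ n ∈ s \ s₀, blkFun x n (h n) := by
    refine (Finset.sum_subset Finset.sdiff_subset fun n hn hn' => ?_).symm
    have hs : n ∈ s₀ := by
      by_contra hns
      exact hn' (Finset.mem_sdiff.2 ⟨hn, hns⟩)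
    rw [hh n (Nat.lt_succ_of_le (Finset.le_sup (f := id) hs))]
    exact map_zero _
  rw [he]
  refine (abs_sum_blocks_le _ _ h).trans (mul_le_mul_of_nonneg_right ?_ (norm_nonneg _))
  rw [Real.sqrt_le_left hε.le]
  exact (hs₀ (s \ s₀) Finset.sdiff_disjoint).le

/-- Every functional is almost supported on a finite parent-closed set of nodes in finitely many
blocks. -/
theorem exists_finite_support (x : X) {ε : ℝ} (hε : 0 < ε) :
    ∃ (K : ℕ) (S : Finset (List ℕ)), Closed S ∧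
      ∀ h : Y, (∀ n, n < K → ∀ l ∈ S, hil n (h n) l = 0) → |x h| ≤ ε * ‖h‖ := by
  classical
  obtain ⟨K, hK⟩ := exists_block_tail x (half_pos hε)
  have hc : (0 : ℝ) < 2 * (K + 1) := by positivity
  have hz : ∀ n, ∃ (z : Hil) (s : Finset (List ℕ)),
      (∀ y : Blk n, blkFun x n y = ⟪z, hil n y⟫) ∧
        ‖z - ∑ l ∈ s, lp.single 2 l (z l)‖ ≤ ε / (2 * (K + 1)) := by
    intro n
    set z : Hil := (toDual ℝ Hil).symm ((blkFun x n).comp (emb n)) with hzd
    have hs := (lp.hasSum_single (p := 2) (by norm_num) z)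
    rw [HasSum, Metric.tendsto_nhds] at hs
    obtain ⟨s, hs⟩ := (hs _ (div_pos hε hc)).exists
    refine ⟨z, s, fun y => ?_, ?_⟩
    · rw [hzd, toDual_symm_apply, ContinuousLinearMap.comp_apply, emb_hil]
    · rw [dist_eq_norm, norm_sub_rev] at hs
      exact hs.le
  choose z s hz1 hz2 using hz
  refine ⟨K, (Finset.range K).biUnion fun n => (s n).biUnion fun l => l.tails.toFinset, ?_, ?_⟩
  · intro j l hjl
    simp only [Finset.mem_biUnion, List.mem_toFinset, List.mem_tails] at hjl ⊢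
    obtain ⟨n, hn, m, hm, hsuf⟩ := hjl
    exact ⟨n, hn, m, hm, (List.suffix_cons j l).trans hsuf⟩
  intro h hh
  have h1 : ∀ n ∈ Finset.range K, |x (incl n (h n))| ≤ ε / (2 * (K + 1)) * ‖h‖ := by
    intro n hn
    rw [← blkFun_apply, hz1]
    have horth : ⟪∑ l ∈ s n, lp.single 2 l (z n l), hil n (h n)⟫ = 0 := by
      rw [sum_inner]
      refine Finset.sum_eq_zero fun l hl => ?_
      rw [lp.inner_single_left, hh n (Finset.mem_range.1 hn) l]
      · simp
      · simp only [Finset.mem_biUnion, List.mem_toFinset, List.mem_tails]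
        exact ⟨n, hn, l, hl, List.suffix_refl l⟩
    have he : ⟪z n, hil n (h n)⟫
        = ⟪z n - ∑ l ∈ s n, lp.single 2 l (z n l), hil n (h n)⟫ := by
      rw [inner_sub_left, horth, sub_zero]
    rw [he]
    refine (abs_real_inner_le_norm _ _).trans
      (mul_le_mul (hz2 n) ((norm_hil_le _).trans (lp.norm_apply_le_norm (by norm_num) h n))
        (norm_nonneg _) (div_nonneg hε.le hc.le))
  have h2 : |x (head K h)| ≤ ε / 2 * ‖h‖ := by
    rw [head, map_sum]
    refine (Finset.abs_sum_le_sum_abs _ _).trans ((Finset.sum_le_sum h1).trans ?_)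
    rw [Finset.sum_const, Finset.card_range, nsmul_eq_mul, ← mul_assoc]
    refine mul_le_mul_of_nonneg_right ?_ (norm_nonneg _)
    rw [← mul_div_assoc, div_le_iff₀ hc]
    nlinarith
  have h3 : |x (h - head K h)| ≤ ε / 2 * ‖h‖ :=
    (hK _ fun n hn => tail_apply_lt h hn).trans
      (mul_le_mul_of_nonneg_left (norm_tail_le K h) (half_pos hε).le)
  have h4 : x h = x (head K h) + x (h - head K h) := by rw [← map_add]; simp
  rw [h4]
  exact (abs_add_le _ _).trans (by linarith)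

/-- Reflexivity of `Y`. -/
theorem reflexive_Y (φ : StrongDual ℝ X) : ∃ y : Y, ∀ x : X, φ x = x y := by
  classical
  have hblock : ∀ n, ∃ y : Blk n, ∀ a : StrongDual ℝ (Blk n), φ (a.comp (proj n)) = a y := by
    intro n
    set L : Y →L[ℝ] Hil := (hil n).comp (proj n) with hL
    set ψ : StrongDual ℝ Hil := LinearMap.mkContinuous
      { toFun := fun z => φ ((innerSL ℝ z).comp L)
        map_add' := fun z w => by
          rw [map_add, ContinuousLinearMap.add_comp, map_add]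
        map_smul' := fun c z => by
          rw [RingHom.id_apply, map_smulₛₗ, ContinuousLinearMap.smul_comp, map_smul]
          simp }
      (‖φ‖ * ‖L‖) (fun z => by
        refine (φ.le_opNorm _).trans ?_
        rw [mul_assoc, mul_comm ‖L‖ ‖z‖]
        refine mul_le_mul_of_nonneg_left ?_ (norm_nonneg _)
        refine (ContinuousLinearMap.opNorm_comp_le _ _).trans ?_
        rw [innerSL_apply_norm]) with hψ
    refine ⟨emb n ((toDual ℝ Hil).symm ψ), fun a => ?_⟩
    set za : Hil := (toDual ℝ Hil).symm (a.comp (emb n)) with hza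
    have hcomp : a.comp (proj n) = (innerSL ℝ za).comp L := by
      ext f
      simp only [ContinuousLinearMap.comp_apply, innerSL_apply_apply, hL, hza, toDual_symm_apply,
        emb_hil]
    calc φ (a.comp (proj n)) = ψ za := by rw [hcomp]; rfl
      _ = ⟪(toDual ℝ Hil).symm ψ, za⟫ := (toDual_symm_apply).symm
      _ = ⟪za, (toDual ℝ Hil).symm ψ⟫ := real_inner_comm _ _
      _ = a (emb n ((toDual ℝ Hil).symm ψ)) := by rw [hza, toDual_symm_apply]; rfl
  choose y hy using hblock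
  have hmem : Memℓp y 2 := by
    refine memℓp_gen' (C := ‖φ‖ ^ 2) fun s => ?_
    simp only [ENNReal.toReal_ofNat, Real.rpow_two]
    choose a ha1 ha2 using fun n => exists_dual_vector'' ℝ (y n)
    set Q := ∑ n ∈ s, ‖y n‖ ^ 2 with hQ
    have hQ0 : 0 ≤ Q := Finset.sum_nonneg fun n _ => sq_nonneg _
    set x : X := ∑ n ∈ s, (‖y n‖ • a n).comp (proj n) with hx
    have hxn : ‖x‖ ≤ √Q := by
      refine ContinuousLinearMap.opNorm_le_bound _ (Real.sqrt_nonneg _) fun h => ?_
      rw [hx, sum_apply, Real.norm_eq_abs]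
      refine (abs_sum_blocks_le s (fun n => ‖y n‖ • a n) h).trans ?_
      refine mul_le_mul_of_nonneg_right (Real.sqrt_le_sqrt (Finset.sum_le_sum fun n _ => ?_))
        (norm_nonneg _)
      refine pow_le_pow_left₀ (norm_nonneg _) ?_ 2
      rw [norm_smul, norm_norm]
      exact mul_le_of_le_one_right (norm_nonneg _) (ha1 n)
    have hval : φ x = Q := by
      rw [hx, map_sum, hQ]
      refine Finset.sum_congr rfl fun n _ => ?_
      rw [hy]
      change ‖y n‖ * a n (y n) = ‖y n‖ ^ 2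
      rw [ha2 n]
      simp [sq]
    have h1 : Q ≤ ‖φ‖ * √Q := by
      calc Q = φ x := hval.symm
        _ ≤ ‖φ x‖ := le_abs_self _
        _ ≤ ‖φ‖ * ‖x‖ := φ.le_opNorm x
        _ ≤ ‖φ‖ * √Q := mul_le_mul_of_nonneg_left hxn (norm_nonneg φ)
    nlinarith [Real.sq_sqrt hQ0, Real.sqrt_nonneg Q, norm_nonneg φ, sq_nonneg (√Q - ‖φ‖)]
  set yy : Y := ⟨y, hmem⟩ with hyy
  refine ⟨yy, fun x => ?_⟩
  refine sub_eq_zero.1 (eq_of_forall_dist_le fun e he => ?_)
  rw [dist_zero_right, Real.norm_eq_abs]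
  have hM : 0 < ‖φ‖ + ‖yy‖ + 1 := by positivity
  obtain ⟨K, hK⟩ := exists_block_tail x (div_pos he hM)
  set xK : X := ∑ n ∈ Finset.range K, (blkFun x n).comp (proj n) with hxK
  have hnorm : ‖x - xK‖ ≤ e / (‖φ‖ + ‖yy‖ + 1) := by
    refine ContinuousLinearMap.opNorm_le_bound _ (div_nonneg he.le hM.le) fun h => ?_
    have heq : (x - xK) h = x (h - head K h) := by
      simp [hxK, head, map_sum, blkFun_apply, proj_apply]
    rw [heq, Real.norm_eq_abs]
    exact (hK _ fun n hn => tail_apply_lt h hn).trans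
      (mul_le_mul_of_nonneg_left (norm_tail_le K h) (div_nonneg he.le hM.le))
  have hKeq : φ xK = xK yy := by
    rw [hxK, map_sum, sum_apply]
    exact Finset.sum_congr rfl fun n _ => hy n _
  calc |φ x - x yy| = |φ (x - xK) - (x - xK) yy| := by
        rw [map_sub, ContinuousLinearMap.sub_apply, hKeq]; ring_nf
    _ ≤ ‖φ (x - xK)‖ + ‖(x - xK) yy‖ := abs_sub _ _
    _ ≤ ‖φ‖ * ‖x - xK‖ + ‖x - xK‖ * ‖yy‖ :=
      add_le_add (φ.le_opNorm _) ((x - xK).le_opNorm _)
    _ = (‖φ‖ + ‖yy‖) * ‖x - xK‖ := by ring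
    _ ≤ (‖φ‖ + ‖yy‖) * (e / (‖φ‖ + ‖yy‖ + 1)) := by gcongr
    _ ≤ e := by
      rw [← mul_div_assoc, div_le_iff₀ hM]
      nlinarith

/-- `X` is reflexive. -/
theorem surjective_inclusion_X :
    Function.Surjective (NormedSpace.inclusionInDoubleDual ℝ X) := by
  intro Φ
  refine ⟨Φ.comp (NormedSpace.inclusionInDoubleDual ℝ Y), ?_⟩
  refine ContinuousLinearMap.ext fun φ => ?_
  obtain ⟨y, hy⟩ := reflexive_Y φ
  have hφ : φ = NormedSpace.inclusionInDoubleDual ℝ Y y :=
    ContinuousLinearMap.ext fun x => hy x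
  rw [hφ]
  rfl

end Vale.Agent.P069
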