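import Vale.Agent.P069.Tree

/-!
# The space

`Blk n` is the space of square-summable functions on the tree of height `n` with the norm
`max ‖u‖₂ (sup_l |pre u l|)`, realised as the graph of `pre` in `ℓ² × ℓ∞`. `Y` is the `ℓ²`-sum of
the blocks and `X` is its dual.
-/

namespace Vale.Agent.P069

open scoped ENNReal

/-- `ℓ²` on the nodes. -/
abbrev Hil : Type := lp (fun _ : List ℕ => ℝ) 2

/-- `ℓ∞` on the nodes. -/
abbrev Linf : Type := lp (fun _ : List ℕ => ℝ) ∞

/-- The `n`-th block, as a subspace. -/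
def blkSub (n : ℕ) : Submodule ℝ (Hil × Linf) where
  carrier := {p | (∀ l : List ℕ, n < l.length → p.1 l = 0) ∧ ∀ l, p.2 l = pre (⇑p.1) l}
  zero_mem' := ⟨fun l _ => rfl, fun l => (pre_zero l).symm⟩
  add_mem' := fun {a b} ha hb =>
    ⟨fun l hl => by simp [ha.1 l hl, hb.1 l hl],
      fun l => by
        simp only [Prod.fst_add, Prod.snd_add, lp.coeFn_add, Pi.add_apply]
        rw [ha.2 l, hb.2 l, pre_add]⟩
  smul_mem' := fun c a ha =>
    ⟨fun l hl => by simp [ha.1 l hl], fun l => by simp [pre_smul, ha.2 l]⟩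

/-- The `n`-th block. -/
abbrev Blk (n : ℕ) : Type := ↥(blkSub n)

theorem continuous_pre : ∀ l, Continuous fun u : Hil => pre (⇑u) l
  | [] => (lp.evalCLM ℝ (fun _ : List ℕ => ℝ) 2 []).continuous
  | j :: l =>
    ((lp.evalCLM ℝ (fun _ : List ℕ => ℝ) 2 (j :: l)).continuous).add (continuous_pre l)

theorem isClosed_blkSub (n : ℕ) : IsClosed (blkSub n : Set (Hil × Linf)) := by
  have h : (blkSub n : Set (Hil × Linf)) =
      (⋂ (l : List ℕ) (_ : n < l.length), {p : Hil × Linf | p.1 l = 0}) ∩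
        ⋂ l : List ℕ, {p : Hil × Linf | p.2 l = pre (⇑p.1) l} := by
    ext p
    simp only [Set.mem_inter_iff, Set.mem_iInter, Set.mem_ofPred_eq]
    exact Iff.rfl
  rw [h]
  refine (isClosed_iInter fun l => isClosed_iInter fun _ => ?_).inter (isClosed_iInter fun l => ?_)
  · exact isClosed_eq ((lp.evalCLM ℝ (fun _ : List ℕ => ℝ) 2 l).continuous.comp continuous_fst)
      continuous_const
  · exact isClosed_eq ((lp.evalCLM ℝ (fun _ : List ℕ => ℝ) ∞ l).continuous.comp continuous_snd)
      ((continuous_pre l).comp continuous_fst)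

noncomputable instance (n : ℕ) : CompleteSpace (Blk n) :=
  (isClosed_blkSub n).completeSpace_coe

/-- The underlying element of `ℓ²`. -/
noncomputable def hil (n : ℕ) : Blk n →L[ℝ] Hil :=
  (ContinuousLinearMap.fst ℝ Hil Linf).comp (blkSub n).subtypeL

theorem hil_apply {n : ℕ} (y : Blk n) : hil n y = y.1.1 := rfl

theorem supp {n : ℕ} (y : Blk n) (l : List ℕ) (hl : n < l.length) : hil n y l = 0 :=
  y.2.1 l hl

theorem norm_hil_le {n : ℕ} (y : Blk n) : ‖hil n y‖ ≤ ‖y‖ :=
  norm_fst_le y.1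

theorem abs_pre_hil_le {n : ℕ} (y : Blk n) (l : List ℕ) : |pre (hil n y) l| ≤ ‖y‖ := by
  have h : pre (hil n y) l = y.1.2 l := (y.2.2 l).symm
  rw [h]
  calc |y.1.2 l| = ‖y.1.2 l‖ := rfl
    _ ≤ ‖y.1.2‖ := lp.norm_apply_le_norm (by simp) _ _
    _ ≤ ‖y‖ := norm_snd_le y.1

theorem blk_norm_le {n : ℕ} (y : Blk n) {M : ℝ} (hM : 0 ≤ M) (h1 : ‖hil n y‖ ≤ M)
    (h2 : ∀ l, |pre (hil n y) l| ≤ M) : ‖y‖ ≤ M := by
  change max ‖y.1.1‖ ‖y.1.2‖ ≤ M
  refine max_le h1 (lp.norm_le_of_forall_le hM fun l => ?_)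
  rw [y.2.2 l]
  exact h2 l

theorem blk_ext {n : ℕ} {y z : Blk n} (h : hil n y = hil n z) : y = z := by
  apply Subtype.ext
  apply Prod.ext h
  ext l
  exact (y.2.2 l).trans ((congrArg (fun u : Hil => pre (⇑u) l) h).trans (z.2.2 l).symm)

/-- Cut off an element of `ℓ²` at level `n`. -/
noncomputable def trunc (n : ℕ) (u : Hil) : Hil :=
  ⟨fun l => if l.length ≤ n then u l else 0,
    (lp.memℓp u).mono' fun l => by split_ifs <;> simp⟩

theorem trunc_apply (n : ℕ) (u : Hil) (l : List ℕ) :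
    trunc n u l = if l.length ≤ n then u l else 0 := rfl

theorem norm_trunc_le (n : ℕ) (u : Hil) : ‖trunc n u‖ ≤ ‖u‖ :=
  lp.norm_mono (by norm_num) fun l => by rw [trunc_apply]; split_ifs <;> simp

theorem abs_pre_trunc_le (n : ℕ) (u : Hil) (l : List ℕ) :
    |pre (trunc n u) l| ≤ (n + 1 : ℕ) * ‖u‖ := by
  have h := abs_pre_le (u := ⇑(trunc n u)) (M := ‖u‖) (n := n)
    (fun k => ((lp.norm_apply_le_norm (by norm_num) (trunc n u) k)).trans (norm_trunc_le n u))
    (fun k hk => by rw [trunc_apply, if_neg (by omega)]) l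
  refine h.trans (mul_le_mul_of_nonneg_right ?_ (norm_nonneg _))
  exact Nat.cast_le.2 (by omega)

/-- The block element with a given square-summable function, cut off at level `n`. -/
noncomputable def embElem (n : ℕ) (u : Hil) : Blk n :=
  ⟨(trunc n u, ⟨fun l => pre (trunc n u) l, memℓp_infty ⟨(n + 1 : ℕ) * ‖u‖, by
      rintro _ ⟨l, rfl⟩
      exact abs_pre_trunc_le n u l⟩⟩),
    fun l hl => by
      change trunc n u l = 0
      rw [trunc_apply, if_neg (by omega)],
    fun l => rfl⟩

theorem hil_embElem (n : ℕ) (u : Hil) : hil n (embElem n u) = trunc n u := rfl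

/-- `embElem` as a continuous linear map. -/
noncomputable def emb (n : ℕ) : Hil →L[ℝ] Blk n :=
  LinearMap.mkContinuous
    { toFun := embElem n
      map_add' := fun u v => blk_ext (by
        rw [map_add]
        ext l
        simp only [hil_embElem, trunc_apply, lp.coeFn_add, Pi.add_apply]
        split_ifs <;> simp)
      map_smul' := fun c u => blk_ext (by
        rw [RingHom.id_apply, map_smul]
        ext l
        simp only [hil_embElem, trunc_apply, lp.coeFn_smul, Pi.smul_apply]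
        split_ifs <;> simp) }
    ((n + 1 : ℕ) : ℝ)
    fun u => by
      refine blk_norm_le _ (by positivity) ?_ ?_
      · refine (norm_trunc_le n u).trans ?_
        exact le_mul_of_one_le_left (norm_nonneg _) (by simp)
      · exact abs_pre_trunc_le n u

theorem hil_emb (n : ℕ) (u : Hil) : hil n (emb n u) = trunc n u := rfl

theorem emb_hil {n : ℕ} (y : Blk n) : emb n (hil n y) = y := by
  refine blk_ext ?_
  rw [hil_emb]
  ext l
  rw [trunc_apply]
  split_ifs with h
  · rfl
  · exact (supp y l (by omega)).symm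

/-- The `ℓ²`-sum of the blocks. -/
abbrev Y : Type := lp (fun n : ℕ => Blk n) 2

/-- The space of the theorem. -/
abbrev X : Type := StrongDual ℝ Y

noncomputable instance instNormedAddCommGroupBlk (n : ℕ) : NormedAddCommGroup (Blk n) :=
  inferInstance

noncomputable instance instNormedSpaceBlk (n : ℕ) : NormedSpace ℝ (Blk n) :=
  inferInstance

noncomputable instance instNormedAddCommGroupY : NormedAddCommGroup Y :=
  inferInstance

noncomputable instance instNormedSpaceY : NormedSpace ℝ Y :=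
  inferInstance

noncomputable instance instNormedAddCommGroupX : NormedAddCommGroup X :=
  inferInstance

noncomputable instance instNormedSpaceX : NormedSpace ℝ X :=
  inferInstance

/-- A block as a subspace of `Y`. -/
noncomputable def incl (n : ℕ) : Blk n →L[ℝ] Y :=
  lp.singleContinuousLinearMap ℝ (fun n : ℕ => Blk n) 2 n

/-- The projection to a block. -/
noncomputable def proj (n : ℕ) : Y →L[ℝ] Blk n :=
  lp.evalCLM ℝ (fun n : ℕ => Blk n) 2 n

theorem proj_apply (n : ℕ) (f : Y) : proj n f = f n := rfl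

theorem norm_incl (n : ℕ) (y : Blk n) : ‖incl n y‖ = ‖y‖ :=
  lp.norm_single (by norm_num) n y

theorem proj_incl (n : ℕ) (y : Blk n) : proj n (incl n y) = y := by
  rw [proj_apply]
  exact lp.single_apply_self 2 n y

theorem proj_incl_ne {n m : ℕ} (h : m ≠ n) (y : Blk n) : proj m (incl n y) = 0 := by
  rw [proj_apply]
  exact lp.single_apply_ne 2 n y h

theorem norm_sq_eq (f : Y) : HasSum (fun n => ‖f n‖ ^ 2) (‖f‖ ^ 2) := by
  simpa [Real.rpow_two] using lp.hasSum_norm (p := 2) (by norm_num) f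

theorem sum_sq_le (f : Y) (s : Finset ℕ) : ∑ n ∈ s, ‖f n‖ ^ 2 ≤ ‖f‖ ^ 2 :=
  sum_le_hasSum s (fun n _ => sq_nonneg _) (norm_sq_eq f)

theorem hasSum_incl (f : Y) : HasSum (fun n => incl n (f n)) f :=
  lp.hasSum_single (by norm_num) f

theorem norm_hil_sq (u : Hil) : HasSum (fun l => u l ^ 2) (‖u‖ ^ 2) := by
  simpa [Real.rpow_two] using lp.hasSum_norm (p := 2) (by norm_num) u

end Vale.Agent.P069
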