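import Mathlib

/-!
# Sums along the branches of the tree of finite sequences

The node `j :: l` is a child of `l`. `pre u l` is the sum of `u` over the path from the root to `l`.
-/

namespace Vale.Agent.P069

/-- The sum of `u` along the path from the root `[]` to `l`. -/
def pre (u : List ℕ → ℝ) : List ℕ → ℝ
  | [] => u []
  | j :: l => u (j :: l) + pre u l

/-- The increments of a function on the tree. -/
def incr (B : List ℕ → ℝ) : List ℕ → ℝ
  | [] => B []
  | j :: l => B (j :: l) - B l

theorem pre_incr (B : List ℕ → ℝ) : ∀ l, pre (incr B) l = B l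
  | [] => rfl
  | j :: l => by
    simp only [pre, incr, pre_incr B l]
    ring

theorem pre_add (u v : List ℕ → ℝ) : ∀ l, pre (u + v) l = pre u l + pre v l
  | [] => rfl
  | j :: l => by
    simp only [pre, pre_add u v l, Pi.add_apply]
    ring

theorem pre_smul (c : ℝ) (u : List ℕ → ℝ) : ∀ l, pre (c • u) l = c * pre u l
  | [] => rfl
  | j :: l => by
    simp only [pre, pre_smul c u l, Pi.smul_apply, smul_eq_mul]
    ring

theorem pre_zero : ∀ l, pre (0 : List ℕ → ℝ) l = 0
  | [] => rfl
  | j :: l => by
    simp only [pre, pre_zero l, Pi.zero_apply, add_zero]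

/-- Bound on a branch sum of a function that vanishes below level `n`. -/
theorem abs_pre_le {u : List ℕ → ℝ} {M : ℝ} {n : ℕ} (hM : ∀ l, |u l| ≤ M)
    (h0 : ∀ l : List ℕ, n < l.length → u l = 0) :
    ∀ l : List ℕ, |pre u l| ≤ (min l.length n + 1 : ℕ) * M
  | [] => by simpa [pre] using hM []
  | j :: l => by
    have ih := abs_pre_le hM h0 l
    have hMn : 0 ≤ M := (abs_nonneg _).trans (hM [])
    simp only [pre, List.length_cons]
    by_cases h : l.length + 1 ≤ n
    · rw [min_eq_left h, min_eq_left (by omega : l.length ≤ n)] at *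
      refine (abs_add_le _ _).trans ?_
      have := hM (j :: l)
      push_cast at ih ⊢
      nlinarith
    · rw [h0 (j :: l) (by simp only [List.length_cons]; omega), zero_add]
      refine ih.trans (mul_le_mul_of_nonneg_right ?_ hMn)
      exact Nat.cast_le.2 (by omega)

/-- `S` is closed under passing to the parent. -/
def Closed (S : Finset (List ℕ)) : Prop :=
  ∀ j : ℕ, ∀ l : List ℕ, j :: l ∈ S → l ∈ S

/-- Below `S`, the branch sum of the restriction to `S` is the branch sum at the exit point. -/
theorem pre_restrict_exists {S : Finset (List ℕ)} (hS : Closed S) (u : List ℕ → ℝ) :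
    ∀ l, (∃ m, pre (fun k => if k ∈ S then u k else 0) l = pre u m) ∨
      pre (fun k => if k ∈ S then u k else 0) l = 0 := by
  have key : ∀ l ∈ S, pre (fun k => if k ∈ S then u k else 0) l = pre u l := by
    intro l
    induction l with
    | nil => intro h; simp [pre, h]
    | cons j l ih => intro h; simp [pre, h, ih (hS j l h)]
  intro l
  induction l with
  | nil =>
    by_cases h : [] ∈ S
    · exact Or.inl ⟨[], key [] h⟩
    · right; simp [pre, h]
  | cons j l ih =>
    by_cases h : j :: l ∈ S
    · exact Or.inl ⟨j :: l, key _ h⟩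
    · simpa [pre, h] using ih

theorem pre_eq_zero_of_vanish {S : Finset (List ℕ)} (hS : Closed S) {h : List ℕ → ℝ}
    (hh : ∀ l ∈ S, h l = 0) : ∀ l ∈ S, pre h l = 0
  | [], hl => hh [] hl
  | j :: l, hl => by
    simp [pre, hh _ hl, pre_eq_zero_of_vanish hS hh l (hS j l hl)]

/-- The part of the branch sums `B` whose sign is opposite to that of `c`. -/
noncomputable def opp (c B : List ℕ → ℝ) (l : List ℕ) : ℝ :=
  if 0 ≤ c l then min (B l) 0 else max (B l) 0

theorem abs_opp_le (c B : List ℕ → ℝ) (l : List ℕ) : |opp c B l| ≤ |B l| := by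
  unfold opp
  split_ifs
  · rcases le_total (B l) 0 with h | h
    · rw [min_eq_left h]
    · rw [min_eq_right h]; simp
  · rcases le_total (B l) 0 with h | h
    · rw [max_eq_right h]; simp
    · rw [max_eq_left h]

theorem abs_sub_opp_le (c B : List ℕ → ℝ) (l : List ℕ) : |B l - opp c B l| ≤ |B l| := by
  unfold opp
  split_ifs
  · rcases le_total (B l) 0 with h | h
    · rw [min_eq_left h]; simp
    · rw [min_eq_right h]; simp
  · rcases le_total (B l) 0 with h | h
    · rw [max_eq_right h]; simp
    · rw [max_eq_left h]; simp

/-- Adding the opposite part does not push a branch sum beyond the larger of the two. -/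
theorem abs_add_opp_le {c B : List ℕ → ℝ} {b : ℝ} (hb : 0 ≤ b) (l : List ℕ) :
    |c l + b * opp c B l| ≤ max |c l| (b * |opp c B l|) := by
  unfold opp
  split_ifs with h
  · have h2 : b * min (B l) 0 ≤ 0 := mul_nonpos_of_nonneg_of_nonpos hb (min_le_right _ _)
    rw [abs_of_nonneg h, abs_of_nonpos (min_le_right (B l) 0)]
    rw [abs_le]
    constructor
    · have := le_max_right (c l) (b * -min (B l) 0)
      linarith
    · have := le_max_left (c l) (b * -min (B l) 0)
      linarith
  · rw [not_le] at h
    have h2 : 0 ≤ b * max (B l) 0 := mul_nonneg hb (le_max_right _ _)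
    rw [abs_of_neg h, abs_of_nonneg (le_max_right (B l) 0)]
    rw [abs_le]
    constructor
    · have := le_max_left (-(c l)) (b * max (B l) 0)
      linarith
    · have := le_max_right (-(c l)) (b * max (B l) 0)
      linarith

/-- Subtracting the complementary part does not push a branch sum beyond the larger of the two. -/
theorem abs_sub_rest_le {c B : List ℕ → ℝ} {b : ℝ} (hb : 0 ≤ b) (l : List ℕ) :
    |c l + b * (opp c B l - B l)| ≤ max |c l| (b * |opp c B l - B l|) := by
  unfold opp
  split_ifs with h
  · have h1 : min (B l) 0 - B l ≤ 0 := sub_nonpos.2 (min_le_left _ _)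
    have h2 : b * (min (B l) 0 - B l) ≤ 0 := mul_nonpos_of_nonneg_of_nonpos hb h1
    rw [abs_of_nonneg h, abs_of_nonpos h1, abs_le]
    constructor
    · have := le_max_right (c l) (b * -(min (B l) 0 - B l))
      linarith
    · have := le_max_left (c l) (b * -(min (B l) 0 - B l))
      linarith
  · rw [not_le] at h
    have h1 : 0 ≤ max (B l) 0 - B l := sub_nonneg.2 (le_max_left _ _)
    have h2 : 0 ≤ b * (max (B l) 0 - B l) := mul_nonneg hb h1
    rw [abs_of_neg h, abs_of_nonneg h1, abs_le]
    constructor
    · have := le_max_left (-(c l)) (b * (max (B l) 0 - B l))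
      linarith
    · have := le_max_right (-(c l)) (b * (max (B l) 0 - B l))
      linarith

/-- The increments of the opposite part are dominated by those of `B`, if `c` is constant off
`S` and `B` vanishes on `S`. -/
theorem abs_incr_opp_le {S : Finset (List ℕ)} (hS : Closed S) {u h : List ℕ → ℝ}
    (hu : ∀ l, l ∉ S → u l = 0) (hh : ∀ l ∈ S, h l = 0) :
    ∀ l, |incr (opp (pre u) (pre h)) l| ≤ |h l| ∧
      |incr (fun k => opp (pre u) (pre h) k - pre h k) l| ≤ |h l|
  | [] => by
    refine ⟨?_, ?_⟩
    · simpa [incr, pre] using abs_opp_le (pre u) (pre h) []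
    · have := abs_sub_opp_le (pre u) (pre h) []
      rw [abs_sub_comm] at this
      simpa [incr, pre] using this
  | j :: l => by
    simp only [incr]
    by_cases hm : j :: l ∈ S
    · have h1 := pre_eq_zero_of_vanish hS hh _ hm
      have h2 := pre_eq_zero_of_vanish hS hh _ (hS j l hm)
      simp [opp, h1, h2]
    · have hc : pre u (j :: l) = pre u l := by simp [pre, hu _ hm]
      have hB : pre h (j :: l) = h (j :: l) + pre h l := rfl
      simp only [opp, hc, hB]
      refine ⟨?_, ?_⟩ <;> split_ifs
      · exact (abs_min_sub_min_le_max _ _ _ _).trans (by simp)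
      · exact (abs_max_sub_max_le_max _ _ _ _).trans (by simp)
      · rcases le_total (h (j :: l) + pre h l) 0 with a | a <;>
          rcases le_total (pre h l) 0 with b | b <;>
          simp only [min_eq_left a, min_eq_right a, min_eq_left b, min_eq_right b] <;>
          rw [abs_le] <;> constructor <;>
          linarith [neg_abs_le (h (j :: l)), le_abs_self (h (j :: l))]
      · rcases le_total (h (j :: l) + pre h l) 0 with a | a <;>
          rcases le_total (pre h l) 0 with b | b <;>
          simp only [max_eq_left a, max_eq_right a, max_eq_left b, max_eq_right b] <;>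
          rw [abs_le] <;> constructor <;>
          linarith [neg_abs_le (h (j :: l)), le_abs_self (h (j :: l))]

end Vale.Agent.P069
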